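import Mathlib

/-!
# Four small facts about `ZMod Q`, `Q` a product of distinct primes (P012 sub-lemma ZMODARITH)
-/

namespace Vale.Agent.H82

open Finset

theorem psupp_nonempty (L : Finset ℕ) (hL : ∀ p ∈ L, p.Prime) (Q : ℕ) [NeZero Q]
    (hQ : Q = ∏ p ∈ L, p) (h : ZMod Q) (hh : h ≠ 0) :
    (L.filter (fun p => ¬ p ∣ h.val)).Nonempty := by
  by_contra hne
  rw [Finset.not_nonempty_iff_eq_empty] at hne
  have hall : ∀ p ∈ L, p ∣ h.val := by
    intro p hp
    by_contra hnd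
    have hmem : p ∈ L.filter (fun p => ¬ p ∣ h.val) := Finset.mem_filter.2 ⟨hp, hnd⟩
    rw [hne] at hmem
    exact absurd hmem (Finset.notMem_empty _)
  have hdvd : Q ∣ h.val := by
    have h1 := Finset.prod_primes_dvd h.val (fun p hp => (hL p hp).prime) hall
    rwa [← hQ] at h1
  have hlt : h.val < Q := ZMod.val_lt h
  have h0 : h.val = 0 := Nat.eq_zero_of_dvd_of_lt hdvd hlt
  exact hh ((ZMod.val_eq_zero h).1 h0)

theorem dvd_sub_of_mul_eq_zero (L : Finset ℕ) (hL : ∀ p ∈ L, p.Prime) (Q : ℕ) [NeZero Q]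
    (hQ : Q = ∏ p ∈ L, p) (h : ZMod Q) (x y : ℕ)
    (hxy : h * ((x : ZMod Q) - (y : ZMod Q)) = 0) :
    ∀ p ∈ L.filter (fun p => ¬ p ∣ h.val), (p : ℤ) ∣ (x : ℤ) - (y : ℤ) := by
  intro p hp
  obtain ⟨hpL, hnd⟩ := Finset.mem_filter.1 hp
  have hcast : (((h.val : ℤ) * ((x : ℤ) - (y : ℤ)) : ℤ) : ZMod Q) = 0 := by
    push_cast
    rw [ZMod.natCast_zmod_val h]
    exact hxy
  have hQdvd : (Q : ℤ) ∣ (h.val : ℤ) * ((x : ℤ) - (y : ℤ)) :=
    (ZMod.intCast_zmod_eq_zero_iff_dvd _ Q).1 hcast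
  have hpQ : (p : ℤ) ∣ (Q : ℤ) := by
    rw [hQ]
    exact Int.natCast_dvd_natCast.2 (Finset.dvd_prod_of_mem _ hpL)
  have hpdvd : (p : ℤ) ∣ (h.val : ℤ) * ((x : ℤ) - (y : ℤ)) := dvd_trans hpQ hQdvd
  have hprime : Prime (p : ℤ) := Nat.prime_iff_prime_int.1 (hL p hpL)
  rcases hprime.dvd_or_dvd hpdvd with h1 | h1
  · exact absurd (Int.natCast_dvd_natCast.1 h1) hnd
  · exact h1

theorem le_prod_psupp_mul_card_ann (L : Finset ℕ) (hL : ∀ p ∈ L, p.Prime) (Q : ℕ) [NeZero Q]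
    (hQ : Q = ∏ p ∈ L, p) (h : ZMod Q) :
    Q ≤ (∏ p ∈ L.filter (fun p => ¬ p ∣ h.val), p) *
      (Finset.univ.filter (fun x : ZMod Q => h * x = 0)).card := by
  classical
  set QT : ℕ := ∏ p ∈ L.filter (fun p => ¬ p ∣ h.val), p with hQT
  set Q' : ℕ := ∏ p ∈ L.filter (fun p => ¬ ¬ p ∣ h.val), p with hQ'
  have hsplit : Q = QT * Q' := by
    rw [hQ, hQT, hQ']
    exact (Finset.prod_filter_mul_prod_filter_not L (fun p => ¬ p ∣ h.val) (fun p => p)).symm
  have hQTpos : 0 < QT := by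
    rw [hQT]
    exact Finset.prod_pos (fun p hp => (hL p (Finset.mem_filter.1 hp).1).pos)
  have hQ'dvd : Q' ∣ h.val := by
    rw [hQ']
    refine Finset.prod_primes_dvd h.val (fun p hp => (hL p (Finset.mem_filter.1 hp).1).prime) ?_
    intro p hp
    exact not_not.1 (Finset.mem_filter.1 hp).2
  have hcard : Q' ≤ (Finset.univ.filter (fun x : ZMod Q => h * x = 0)).card := by
    have hinj : Set.InjOn (fun j : ℕ => ((QT * j : ℕ) : ZMod Q)) (Finset.range Q' : Set ℕ) := by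
      intro a ha b hb hab
      have ha' : a < Q' := Finset.mem_range.1 (Finset.mem_coe.1 ha)
      have hb' : b < Q' := Finset.mem_range.1 (Finset.mem_coe.1 hb)
      have hqa : QT * a < Q := by rw [hsplit]; exact Nat.mul_lt_mul_of_pos_left ha' hQTpos
      have hqb : QT * b < Q := by rw [hsplit]; exact Nat.mul_lt_mul_of_pos_left hb' hQTpos
      have hval : ((QT * a : ℕ) : ZMod Q).val = ((QT * b : ℕ) : ZMod Q).val := by
        simpa using congrArg ZMod.val hab
      rw [ZMod.val_natCast_of_lt hqa, ZMod.val_natCast_of_lt hqb] at hval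
      exact Nat.eq_of_mul_eq_mul_left hQTpos hval
    have hmaps : ∀ j ∈ Finset.range Q',
        (fun j : ℕ => ((QT * j : ℕ) : ZMod Q)) j ∈
          Finset.univ.filter (fun x : ZMod Q => h * x = 0) := by
      intro j _
      refine Finset.mem_filter.2 ⟨Finset.mem_univ _, ?_⟩
      obtain ⟨c, hc⟩ := hQ'dvd
      have hnat : ((h.val * (QT * j) : ℕ) : ZMod Q) = 0 := by
        rw [ZMod.natCast_eq_zero_iff]
        refine ⟨c * j, ?_⟩
        rw [hc, hsplit]
        ring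
      have hh : (h : ZMod Q) = ((h.val : ℕ) : ZMod Q) := (ZMod.natCast_zmod_val h).symm
      show h * ((QT * j : ℕ) : ZMod Q) = 0
      rw [hh, ← Nat.cast_mul]
      simpa using hnat
    have := Finset.card_le_card_of_injOn _ hmaps hinj
    simpa using this
  calc Q = QT * Q' := hsplit
    _ ≤ QT * (Finset.univ.filter (fun x : ZMod Q => h * x = 0)).card :=
        Nat.mul_le_mul_left _ hcard

theorem card_psupp_eq_le (L : Finset ℕ) (hL : ∀ p ∈ L, p.Prime) (Q : ℕ) [NeZero Q]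
    (hQ : Q = ∏ p ∈ L, p) (T : Finset ℕ) (hT : T ⊆ L) :
    (Finset.univ.filter
      (fun h : ZMod Q => L.filter (fun p => ¬ p ∣ h.val) = T)).card ≤ ∏ p ∈ T, p := by
  classical
  set Q' : ℕ := ∏ p ∈ L \ T, p with hQ'
  set PT : ℕ := ∏ p ∈ T, p with hPT
  have hsplit : Q = Q' * PT := by
    rw [hQ, hQ', hPT]
    exact (Finset.prod_sdiff hT).symm
  have hQ'pos : 0 < Q' := by
    rw [hQ']
    exact Finset.prod_pos (fun p hp => (hL p (Finset.mem_sdiff.1 hp).1).pos)
  have hdvd : ∀ h ∈ Finset.univ.filter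
      (fun h : ZMod Q => L.filter (fun p => ¬ p ∣ h.val) = T), Q' ∣ h.val := by
    intro h hh
    have hfil : L.filter (fun p => ¬ p ∣ h.val) = T := (Finset.mem_filter.1 hh).2
    rw [hQ']
    refine Finset.prod_primes_dvd h.val (fun p hp => (hL p (Finset.mem_sdiff.1 hp).1).prime) ?_
    intro p hp
    obtain ⟨hpL, hpT⟩ := Finset.mem_sdiff.1 hp
    by_contra hnd
    exact hpT (hfil ▸ Finset.mem_filter.2 ⟨hpL, hnd⟩)
  have hmaps : ∀ h ∈ Finset.univ.filter
      (fun h : ZMod Q => L.filter (fun p => ¬ p ∣ h.val) = T),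
      (fun h : ZMod Q => h.val / Q') h ∈ Finset.range PT := by
    intro h _
    refine Finset.mem_range.2 ?_
    have hlt : h.val < Q' * PT := by rw [← hsplit]; exact ZMod.val_lt h
    exact Nat.div_lt_of_lt_mul hlt
  have hinj : Set.InjOn (fun h : ZMod Q => h.val / Q')
      (Finset.univ.filter
        (fun h : ZMod Q => L.filter (fun p => ¬ p ∣ h.val) = T) : Set (ZMod Q)) := by
    intro a ha b hb hab
    have ha' := hdvd a (Finset.mem_coe.1 ha)
    have hb' := hdvd b (Finset.mem_coe.1 hb)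
    have hab' : a.val / Q' = b.val / Q' := hab
    have hval : a.val = b.val := by
      rw [← Nat.div_mul_cancel ha', ← Nat.div_mul_cancel hb', hab']
    exact ZMod.val_injective Q hval
  have := Finset.card_le_card_of_injOn _ hmaps hinj
  simpa using this

end Vale.Agent.H82
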